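import Mathlib

/-!
# Offset fixed-point interval arithmetic for the kernel

A natural number `n` represents the real `(n - 2^40) / 2^30`.  All operations are raw operations
on naturals (which the kernel evaluates on literals), so that `decide +kernel` is fast.
-/

namespace Vale.Agent.IAD

/-- the real number represented by an offset natural -/
noncomputable def vl (n : ℕ) : ℝ := ((n : ℝ) - 1099511627776) / 1073741824

/-- an interval of offset naturals -/
structure Iv where
  lo : ℕ
  hi : ℕ

/-- membership of a real -/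
def Iv.Mem (i : Iv) (x : ℝ) : Prop := vl i.lo ≤ x ∧ x ≤ vl i.hi

/-- range guard: all endpoints are in `[-512, 512]` -/
def Iv.ok (i : Iv) : Bool :=
  match i with
  | ⟨a, b⟩ => bif Nat.ble 549755813888 a then Nat.ble b 1649267441664 else false

def Iv.Ok (i : Iv) : Prop := 549755813888 ≤ i.lo ∧ i.hi ≤ 1649267441664

theorem Iv.ok_iff (i : Iv) : i.ok = true ↔ i.Ok := by
  obtain ⟨a, b⟩ := i
  unfold Iv.ok Iv.Ok
  dsimp only
  rcases h : Nat.ble 549755813888 a with _ | _
  · simp only [cond_false, Bool.false_eq_true, false_iff]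
    intro hh
    have := Nat.ble_eq.mpr hh.1
    simp [h] at this
  · simp only [cond_true]
    have h1 := Nat.ble_eq.mp h
    constructor
    · intro h2
      exact ⟨h1, Nat.ble_eq.mp h2⟩
    · intro h2
      exact Nat.ble_eq.mpr h2.2

theorem vl_mono {a b : ℕ} (h : a ≤ b) : vl a ≤ vl b := by
  unfold vl
  have : (a : ℝ) ≤ b := by exact_mod_cast h
  linarith

theorem vl_le_iff {a b : ℕ} : vl a ≤ vl b ↔ a ≤ b := by
  constructor
  · intro h
    unfold vl at h
    have : (a : ℝ) ≤ b := by linarith
    exact_mod_cast this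
  · exact vl_mono

theorem Iv.le_of_mem {i : Iv} {x : ℝ} (h : i.Mem x) : i.lo ≤ i.hi :=
  vl_le_iff.mp (h.1.trans h.2)

/-- addition -/
def Iv.add (x y : Iv) : Iv :=
  match x, y with
  | ⟨a, b⟩, ⟨c, d⟩ => ⟨Nat.sub (Nat.add a c) 1099511627776, Nat.sub (Nat.add b d) 1099511627776⟩

theorem Iv.add_mem {x y : Iv} {u v : ℝ} (hx : x.Mem u) (hy : y.Mem v) (ox : x.Ok) (oy : y.Ok) :
    (x.add y).Mem (u + v) := by
  obtain ⟨a, b⟩ := x
  obtain ⟨c, d⟩ := y
  have hab := Iv.le_of_mem hx
  have hcd := Iv.le_of_mem hy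
  unfold Iv.Mem Iv.Ok Iv.add at *
  dsimp only [Nat.sub_eq, Nat.add_eq] at *
  have e1 : 1099511627776 ≤ a + c := by omega
  have e2 : 1099511627776 ≤ b + d := by omega
  unfold vl at *
  rw [Nat.cast_sub e1, Nat.cast_sub e2]
  push_cast
  constructor <;> linarith [hx.1, hx.2, hy.1, hy.2]

/-- negation -/
def Iv.neg (x : Iv) : Iv :=
  match x with
  | ⟨a, b⟩ => ⟨Nat.sub 2199023255552 b, Nat.sub 2199023255552 a⟩

theorem Iv.neg_mem {x : Iv} {u : ℝ} (hx : x.Mem u) (ox : x.Ok) : (x.neg).Mem (-u) := by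
  obtain ⟨a, b⟩ := x
  have hab := Iv.le_of_mem hx
  unfold Iv.Mem Iv.Ok Iv.neg at *
  dsimp only [Nat.sub_eq] at *
  have e1 : b ≤ 2199023255552 := by omega
  have e2 : a ≤ 2199023255552 := by omega
  unfold vl at *
  rw [Nat.cast_sub e1, Nat.cast_sub e2]
  push_cast
  constructor <;> linarith [hx.1, hx.2]

/-- subtraction -/
def Iv.sub (x y : Iv) : Iv :=
  match x, y with
  | ⟨a, b⟩, ⟨c, d⟩ => ⟨Nat.sub (Nat.add a 1099511627776) d, Nat.sub (Nat.add b 1099511627776) c⟩

theorem Iv.sub_mem {x y : Iv} {u v : ℝ} (hx : x.Mem u) (hy : y.Mem v) (ox : x.Ok) (oy : y.Ok) :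
    (x.sub y).Mem (u - v) := by
  obtain ⟨a, b⟩ := x
  obtain ⟨c, d⟩ := y
  have hab := Iv.le_of_mem hx
  have hcd := Iv.le_of_mem hy
  unfold Iv.Mem Iv.Ok Iv.sub at *
  dsimp only [Nat.sub_eq, Nat.add_eq] at *
  have e1 : d ≤ a + 1099511627776 := by omega
  have e2 : c ≤ b + 1099511627776 := by omega
  unfold vl at *
  rw [Nat.cast_sub e1, Nat.cast_sub e2]
  push_cast
  constructor <;> linarith [hx.1, hx.2, hy.1, hy.2]

/-- numerator of a product: `(a - O)(c - O) + O S` -/
def pnum (a c : ℕ) : ℕ :=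
  Nat.sub (Nat.add (Nat.mul a c) 1210106411235346586009600)
    (Nat.mul 1099511627776 (Nat.add a c))

/-- rounded down product -/
def pdn (a c : ℕ) : ℕ := Nat.div (pnum a c) 1073741824

/-- rounded up product -/
def pup (a c : ℕ) : ℕ := Nat.succ (Nat.div (pnum a c) 1073741824)

theorem pnum_ge (a c : ℕ) :
    ((a : ℝ) - 1099511627776) * ((c : ℝ) - 1099511627776) + 1180591620717411303424
      ≤ (pnum a c : ℝ) := by
  have h : a * c + 1210106411235346586009600 ≤ pnum a c + 1099511627776 * (a + c) := by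
    unfold pnum
    dsimp only [Nat.sub_eq, Nat.add_eq, Nat.mul_eq]
    omega
  have h2 : (a : ℝ) * c + 1210106411235346586009600 ≤ (pnum a c : ℝ)
      + 1099511627776 * ((a : ℝ) + c) := by exact_mod_cast h
  nlinarith

theorem pnum_eq (a c : ℕ) (h : 0 < pnum a c) :
    (pnum a c : ℝ) =
      ((a : ℝ) - 1099511627776) * ((c : ℝ) - 1099511627776) + 1180591620717411303424 := by
  unfold pnum at *
  dsimp only [Nat.sub_eq, Nat.add_eq, Nat.mul_eq] at *
  rw [Nat.cast_sub (by omega)]
  push_cast
  ring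

theorem vl_pdn (a c : ℕ) (h : 0 < pdn a c) : vl (pdn a c) ≤ vl a * vl c := by
  unfold pdn at *
  change 0 < pnum a c / 1073741824 at h
  change vl (pnum a c / 1073741824) ≤ _
  have h1 : 0 < pnum a c := by
    rcases Nat.eq_zero_or_pos (pnum a c) with h0 | h0
    · rw [h0] at h; simp at h
    · exact h0
  have h2 := pnum_eq a c h1
  have h3 : (pnum a c / 1073741824) * 1073741824 ≤ pnum a c := Nat.div_mul_le_self _ _
  have h4 : ((pnum a c / 1073741824 : ℕ) : ℝ) * 1073741824 ≤ (pnum a c : ℝ) := by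
    exact_mod_cast h3
  unfold vl
  rw [div_mul_div_comm, div_le_div_iff₀ (by norm_num) (by norm_num)]
  nlinarith

theorem vl_pup (a c : ℕ) : vl a * vl c ≤ vl (pup a c) := by
  change _ ≤ vl (pnum a c / 1073741824 + 1)
  have h2 := pnum_ge a c
  have h3 : pnum a c < (pnum a c / 1073741824 + 1) * 1073741824 := by
    omega
  have h4 : (pnum a c : ℝ) < ((pnum a c / 1073741824 + 1 : ℕ) : ℝ) * 1073741824 := by
    exact_mod_cast h3
  unfold vl
  rw [div_mul_div_comm, div_le_div_iff₀ (by norm_num) (by norm_num)]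
  nlinarith

/-- product with a nonnegative first factor `[a, b]` -/
def Iv.mulp (a b c d : ℕ) : Iv :=
  ⟨pdn (bif Nat.ble 1099511627776 c then a else b) c,
    pup (bif Nat.ble 1099511627776 d then b else a) d⟩

theorem vl_nonneg {n : ℕ} (h : 1099511627776 ≤ n) : 0 ≤ vl n := by
  unfold vl
  have : (1099511627776 : ℝ) ≤ n := by exact_mod_cast h
  apply div_nonneg <;> linarith

theorem vl_nonpos {n : ℕ} (h : n ≤ 1099511627776) : vl n ≤ 0 := by
  unfold vl
  have : (n : ℝ) ≤ 1099511627776 := by exact_mod_cast h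
  apply div_nonpos_of_nonpos_of_nonneg <;> linarith

theorem Iv.mulp_mem {a b c d : ℕ} {u v : ℝ} (ha : 1099511627776 ≤ a) (hu : vl a ≤ u)
    (hu' : u ≤ vl b) (hv : vl c ≤ v) (hv' : v ≤ vl d) (ok : 0 < (Iv.mulp a b c d).lo) :
    (Iv.mulp a b c d).Mem (u * v) := by
  have h0 := vl_nonneg ha
  have hu0 : 0 ≤ u := h0.trans hu
  unfold Iv.mulp Iv.Mem at *
  dsimp only at *
  constructor
  · rcases hc : Nat.ble 1099511627776 c with _ | _
    · rw [hc] at ok
      simp only [cond_false] at ok ⊢
      have h1 : c ≤ 1099511627776 := by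
        have : ¬ 1099511627776 ≤ c := fun h => by
          rw [Nat.ble_eq.mpr h] at hc; simp at hc
        omega
      have h2 := vl_nonpos h1
      have h3 := vl_pdn b c ok
      nlinarith
    · rw [hc] at ok
      simp only [cond_true] at ok ⊢
      have h1 := vl_nonneg (Nat.ble_eq.mp hc)
      have h3 := vl_pdn a c ok
      nlinarith
  · rcases hd : Nat.ble 1099511627776 d with _ | _
    · simp only [cond_false]
      have h1 : d ≤ 1099511627776 := by
        have : ¬ 1099511627776 ≤ d := fun h => by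
          rw [Nat.ble_eq.mpr h] at hd; simp at hd
        omega
      have h2 := vl_nonpos h1
      have h3 := vl_pup a d
      nlinarith
    · simp only [cond_true]
      have h1 := vl_nonneg (Nat.ble_eq.mp hd)
      have h3 := vl_pup b d
      nlinarith

def nmin (a b : ℕ) : ℕ := bif Nat.ble a b then a else b
def nmax (a b : ℕ) : ℕ := bif Nat.ble a b then b else a

theorem nmin_le_left (a b : ℕ) : nmin a b ≤ a := by
  unfold nmin
  rcases h : Nat.ble a b with _ | _
  · simp only [cond_false]
    by_contra h1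
    rw [Nat.ble_eq.mpr (by omega)] at h
    simp at h
  · simp
theorem nmin_le_right (a b : ℕ) : nmin a b ≤ b := by
  unfold nmin
  rcases h : Nat.ble a b with _ | _
  · simp
  · simpa using Nat.ble_eq.mp h
theorem le_nmax_left (a b : ℕ) : a ≤ nmax a b := by
  unfold nmax
  rcases h : Nat.ble a b with _ | _
  · simp
  · simpa using Nat.ble_eq.mp h
theorem le_nmax_right (a b : ℕ) : b ≤ nmax a b := by
  unfold nmax
  rcases h : Nat.ble a b with _ | _
  · simp only [cond_false]
    by_contra h1
    rw [Nat.ble_eq.mpr (by omega)] at h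
    simp at h
  · simp

/-- product -/
def Iv.mul (x y : Iv) : Iv :=
  match x, y with
  | ⟨a, b⟩, ⟨c, d⟩ =>
    bif Nat.ble 1099511627776 a then Iv.mulp a b c d
    else bif Nat.ble 1099511627776 c then Iv.mulp c d a b
    else ⟨nmin (nmin (pdn a c) (pdn a d)) (nmin (pdn b c) (pdn b d)),
      nmax (nmax (pup a c) (pup a d)) (nmax (pup b c) (pup b d))⟩

theorem Iv.mul_mem {x y : Iv} {u v : ℝ} (hx : x.Mem u) (hy : y.Mem v)
    (ok : 0 < (x.mul y).lo) : (x.mul y).Mem (u * v) := by
  obtain ⟨a, b⟩ := x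
  obtain ⟨c, d⟩ := y
  unfold Iv.mul at *
  dsimp only at *
  rcases ha : Nat.ble 1099511627776 a with _ | _
  · rcases hc : Nat.ble 1099511627776 c with _ | _
    · rw [ha, hc] at ok
      simp only [cond_false] at ok ⊢
      obtain ⟨hx1, hx2⟩ := hx
      obtain ⟨hy1, hy2⟩ := hy
      dsimp only at hx1 hx2 hy1 hy2
      have l1 := nmin_le_left (nmin (pdn a c) (pdn a d)) (nmin (pdn b c) (pdn b d))
      have l2 := nmin_le_right (nmin (pdn a c) (pdn a d)) (nmin (pdn b c) (pdn b d))
      have l3 := nmin_le_left (pdn a c) (pdn a d)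
      have l4 := nmin_le_right (pdn a c) (pdn a d)
      have l5 := nmin_le_left (pdn b c) (pdn b d)
      have l6 := nmin_le_right (pdn b c) (pdn b d)
      have m1 := le_nmax_left (nmax (pup a c) (pup a d)) (nmax (pup b c) (pup b d))
      have m2 := le_nmax_right (nmax (pup a c) (pup a d)) (nmax (pup b c) (pup b d))
      have m3 := le_nmax_left (pup a c) (pup a d)
      have m4 := le_nmax_right (pup a c) (pup a d)
      have m5 := le_nmax_left (pup b c) (pup b d)
      have m6 := le_nmax_right (pup b c) (pup b d)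
      set L := nmin (nmin (pdn a c) (pdn a d)) (nmin (pdn b c) (pdn b d)) with hL
      set M := nmax (nmax (pup a c) (pup a d)) (nmax (pup b c) (pup b d)) with hM
      have q1 : vl L ≤ vl a * vl c := (vl_mono (l1.trans l3)).trans (vl_pdn a c (by omega))
      have q2 : vl L ≤ vl a * vl d := (vl_mono (l1.trans l4)).trans (vl_pdn a d (by omega))
      have q3 : vl L ≤ vl b * vl c := (vl_mono (l2.trans l5)).trans (vl_pdn b c (by omega))
      have q4 : vl L ≤ vl b * vl d := (vl_mono (l2.trans l6)).trans (vl_pdn b d (by omega))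
      have r1 : vl a * vl c ≤ vl M := (vl_pup a c).trans (vl_mono (m3.trans m1))
      have r2 : vl a * vl d ≤ vl M := (vl_pup a d).trans (vl_mono (m4.trans m1))
      have r3 : vl b * vl c ≤ vl M := (vl_pup b c).trans (vl_mono (m5.trans m2))
      have r4 : vl b * vl d ≤ vl M := (vl_pup b d).trans (vl_mono (m6.trans m2))
      constructor
      · change vl L ≤ u * v
        rcases le_total 0 v with h | h
        · rcases le_total 0 (vl a) with h' | h'
          · nlinarith
          · nlinarith
        · rcases le_total 0 (vl b) with h' | h'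
          · nlinarith
          · nlinarith
      · change u * v ≤ vl M
        rcases le_total 0 v with h | h
        · rcases le_total 0 (vl b) with h' | h'
          · nlinarith
          · nlinarith
        · rcases le_total 0 (vl a) with h' | h'
          · nlinarith
          · nlinarith
    · rw [ha, hc] at ok
      simp only [cond_false, cond_true] at ok ⊢
      have := Iv.mulp_mem (Nat.ble_eq.mp hc) hy.1 hy.2 hx.1 hx.2 ok
      rwa [mul_comm v u] at this
  · rw [ha] at ok
    simp only [cond_true] at ok ⊢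
    exact Iv.mulp_mem (Nat.ble_eq.mp ha) hx.1 hx.2 hy.1 hy.2 ok

end Vale.Agent.IAD
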