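import Vale.Agent.Lib.IAD.Arith

/-!
# Logarithm of an offset fixed-point interval, kernel friendly
-/

namespace Vale.Agent.IAD

open Finset

/-! ### partial sums of the series of `log (1+t) - log (1-t)` -/

theorem artanh_sum_le {t : ℝ} (h0 : 0 ≤ t) (h1 : t < 1) (n : ℕ) :
    ∑ i ∈ range n, (2 : ℝ) * (1 / (2 * i + 1)) * t ^ (2 * i + 1)
      ≤ Real.log (1 + t) - Real.log (1 - t) := by
  have h := Real.hasSum_log_sub_log_of_abs_lt_one (x := t) (by rw [abs_of_nonneg h0]; exact h1)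
  exact sum_le_hasSum _ (fun i _ => by positivity) h

theorem artanh_le_sum {t : ℝ} (h0 : 0 ≤ t) (h1 : t < 1) (n : ℕ) :
    Real.log (1 + t) - Real.log (1 - t) ≤
      ∑ i ∈ range n, (2 : ℝ) * (1 / (2 * i + 1)) * t ^ (2 * i + 1)
        + 2 / (2 * n + 1) * t ^ (2 * n + 1) / (1 - t ^ 2) := by
  have h := Real.hasSum_log_sub_log_of_abs_lt_one (x := t) (by rw [abs_of_nonneg h0]; exact h1)
  have h2 := (hasSum_nat_add_iff' n).mpr h
  have ht2 : t ^ 2 < 1 := by nlinarith
  have hg : HasSum (fun j : ℕ => 2 / (2 * (n : ℝ) + 1) * t ^ (2 * n + 1) * (t ^ 2) ^ j)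
      (2 / (2 * (n : ℝ) + 1) * t ^ (2 * n + 1) * (1 - t ^ 2)⁻¹) :=
    (hasSum_geometric_of_lt_one (by positivity) ht2).mul_left _
  have h3 : ∀ j : ℕ, (2 : ℝ) * (1 / (2 * ((j + n : ℕ) : ℝ) + 1)) * t ^ (2 * (j + n) + 1) ≤
      2 / (2 * (n : ℝ) + 1) * t ^ (2 * n + 1) * (t ^ 2) ^ j := by
    intro j
    have e : t ^ (2 * (j + n) + 1) = t ^ (2 * n + 1) * (t ^ 2) ^ j := by
      rw [← pow_mul, ← pow_add]; congr 1; ring
    rw [e]
    have e2 : (2 : ℝ) * (1 / (2 * ((j + n : ℕ) : ℝ) + 1)) ≤ 2 / (2 * (n : ℝ) + 1) := by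
      rw [mul_one_div]
      apply div_le_div_of_nonneg_left (by norm_num) (by positivity)
      push_cast
      have : (0 : ℝ) ≤ j := Nat.cast_nonneg j
      linarith
    calc _ ≤ 2 / (2 * (n : ℝ) + 1) * (t ^ (2 * n + 1) * (t ^ 2) ^ j) := by
          apply mul_le_mul_of_nonneg_right e2 (by positivity)
      _ = _ := by ring
  have h4 := hasSum_le h3 h2 hg
  have e3 : 2 / (2 * (n : ℝ) + 1) * t ^ (2 * n + 1) * (1 - t ^ 2)⁻¹ =
    2 / (2 * n + 1) * t ^ (2 * n + 1) / (1 - t ^ 2) := by rw [div_eq_mul_inv _ (1 - t ^ 2)]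
  rw [e3] at h4
  linarith

theorem log_ratio {a b : ℝ} (hb : 0 < b) (hab : b ≤ a) :
    Real.log (1 + (a - b) / (a + b)) - Real.log (1 - (a - b) / (a + b)) = Real.log (a / b) := by
  have h1 : (0 : ℝ) < a + b := by linarith
  have ha : (0 : ℝ) < a := by linarith
  have e1 : 1 + (a - b) / (a + b) = 2 * a / (a + b) := by field_simp; ring
  have e2 : 1 - (a - b) / (a + b) = 2 * b / (a + b) := by field_simp; ring
  rw [e1, e2, ← Real.log_div (by positivity) (by positivity)]
  congr 1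
  field_simp

/-! ### the constants -/

/-- `log c` for `c = 1 + j/8` is within `1` unit of `2^{-46}` of the table -/
theorem log_const (a b T : ℝ) (hb : 0 < b) (hab : b ≤ a)
    (h1 : T - 1 ≤ 70368744177664 *
      ∑ i ∈ range 16, (2 : ℝ) * (1 / (2 * i + 1)) * ((a - b) / (a + b)) ^ (2 * i + 1))
    (h2 : 70368744177664 *
      (∑ i ∈ range 16, (2 : ℝ) * (1 / (2 * i + 1)) * ((a - b) / (a + b)) ^ (2 * i + 1)
        + 2 / (2 * (16 : ℕ) + 1) * ((a - b) / (a + b)) ^ (2 * 16 + 1)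
          / (1 - ((a - b) / (a + b)) ^ 2)) ≤ T + 1) :
    T - 1 ≤ 70368744177664 * Real.log (a / b) ∧ 70368744177664 * Real.log (a / b) ≤ T + 1 := by
  have h3 : (0 : ℝ) < a + b := by linarith
  have h4 : 0 ≤ (a - b) / (a + b) := div_nonneg (by linarith) h3.le
  have h5 : (a - b) / (a + b) < 1 := by rw [div_lt_one h3]; linarith
  have h6 := artanh_sum_le h4 h5 16
  have h7 := artanh_le_sum h4 h5 16
  rw [log_ratio hb hab] at h6 h7
  constructor
  · linarith
  · linarith

theorem log_two_bd : (48775896626292 : ℝ) - 1 ≤ 70368744177664 * Real.log 2 ∧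
    70368744177664 * Real.log 2 ≤ 48775896626292 + 1 := by
  have := log_const 2 1 48775896626292 (by norm_num) (by norm_num)
    (by norm_num [Finset.sum_range_succ]) (by norm_num [Finset.sum_range_succ])
  simpa using this

/-- packed table of `round (2^46 log (1+j/8))` -/
def lTab : ℕ := 32151276278052612937226994646133922730994842503104066772784529293114377464922142234017981889851278736161306479079913572008253917880551297783519248384

/-- table lookup -/
def lTabAt (j : ℕ) : ℕ := Nat.mod (Nat.shiftRight lTab (Nat.mul 64 j)) 18446744073709551616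

theorem tab_bd (j : ℕ) (hj : j < 8) :
    ((lTabAt j : ℕ) : ℝ) - 1 ≤ 70368744177664 * Real.log ((8 + (j : ℝ)) / 8) ∧
      70368744177664 * Real.log ((8 + (j : ℝ)) / 8) ≤ (lTabAt j : ℕ) + 1 := by
  interval_cases j
  · have e : lTabAt 0 = 0 := by decide +kernel
    rw [e]
    have := log_const (8 + 0) 8 0 (by norm_num) (by norm_num)
      (by norm_num [Finset.sum_range_succ]) (by norm_num [Finset.sum_range_succ])
    push_cast
    simpa using this
  · have e : lTabAt 1 = 8288244304573 := by decide +kernel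
    rw [e]
    have := log_const (8 + 1) 8 8288244304573 (by norm_num) (by norm_num)
      (by norm_num [Finset.sum_range_succ]) (by norm_num [Finset.sum_range_succ])
    push_cast
    simpa using this
  · have e : lTabAt 2 = 15702331477325 := by decide +kernel
    rw [e]
    have := log_const (8 + 2) 8 15702331477325 (by norm_num) (by norm_num)
      (by norm_num [Finset.sum_range_succ]) (by norm_num [Finset.sum_range_succ])
    push_cast
    simpa using this
  · have e : lTabAt 3 = 22409189137503 := by decide +kernel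
    rw [e]
    have := log_const (8 + 3) 8 22409189137503 (by norm_num) (by norm_num)
      (by norm_num [Finset.sum_range_succ]) (by norm_num [Finset.sum_range_succ])
    push_cast
    simpa using this
  · have e : lTabAt 4 = 28532070465432 := by decide +kernel
    rw [e]
    have := log_const (8 + 4) 8 28532070465432 (by norm_num) (by norm_num)
      (by norm_num [Finset.sum_range_succ]) (by norm_num [Finset.sum_range_succ])
    push_cast
    simpa using this
  · have e : lTabAt 5 = 34164575284999 := by decide +kernel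
    rw [e]
    have := log_const (8 + 5) 8 34164575284999 (by norm_num) (by norm_num)
      (by norm_num [Finset.sum_range_succ]) (by norm_num [Finset.sum_range_succ])
    push_cast
    simpa using this
  · have e : lTabAt 6 = 39379460219010 := by decide +kernel
    rw [e]
    have := log_const (8 + 6) 8 39379460219010 (by norm_num) (by norm_num)
      (by norm_num [Finset.sum_range_succ]) (by norm_num [Finset.sum_range_succ])
    push_cast
    simpa using this
  · have e : lTabAt 7 = 44234401942757 := by decide +kernel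
    rw [e]
    have := log_const (8 + 7) 8 44234401942757 (by norm_num) (by norm_num)
      (by norm_num [Finset.sum_range_succ]) (by norm_num [Finset.sum_range_succ])
    push_cast
    simpa using this

/-! ### the evaluator -/

/-- `2 (T + T^3/3 + T^5/5)` in units of `2^{-46}`, `t2 = T^2`, rounded down -/
def lgS2 (T t2 t3 : ℕ) : ℕ :=
  Nat.mul 2 (Nat.add T (Nat.add (Nat.div t3 3)
    (Nat.div (Nat.div (Nat.mul t3 t2) 70368744177664) 5)))

def lgS1 (T t2 : ℕ) : ℕ := lgS2 T t2 (Nat.div (Nat.mul t2 T) 70368744177664)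

def lgS (T : ℕ) : ℕ := lgS1 T (Nat.div (Nat.mul T T) 70368744177664)

theorem div_bd (a b : ℕ) (hb : 0 < b) : ((a / b : ℕ) : ℝ) ≤ (a : ℝ) / b ∧
    (a : ℝ) / b - 1 ≤ ((a / b : ℕ) : ℝ) := by
  have hb' : (0 : ℝ) < b := by exact_mod_cast hb
  constructor
  · exact Nat.cast_div_le
  · have h := Nat.lt_div_mul_add (a := a) hb
    have h2 : (a : ℝ) < ((a / b : ℕ) : ℝ) * b + b := by exact_mod_cast h
    rw [sub_le_iff_le_add, div_le_iff₀ hb']
    linarith

theorem lgS_bd (T : ℕ) (hT : (T : ℝ) ≤ 70368744177664 / 17) :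
    (lgS T : ℝ) ≤ 70368744177664 * (2 * ((T / 70368744177664 : ℝ)
      + (T / 70368744177664 : ℝ) ^ 3 / 3 + (T / 70368744177664 : ℝ) ^ 5 / 5)) ∧
    70368744177664 * (2 * ((T / 70368744177664 : ℝ)
      + (T / 70368744177664 : ℝ) ^ 3 / 3 + (T / 70368744177664 : ℝ) ^ 5 / 5)) - 10
      ≤ (lgS T : ℝ) := by
  unfold lgS lgS1 lgS2
  dsimp only [Nat.mul_eq, Nat.add_eq]
  change ((2 * (T + ((T * T / 70368744177664 * T / 70368744177664) / 3 +
    (T * T / 70368744177664 * T / 70368744177664 * (T * T / 70368744177664)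
      / 70368744177664) / 5)) : ℕ) : ℝ) ≤ _ ∧ _ ≤ ((2 * (T + ((T * T / 70368744177664 * T /
      70368744177664) / 3 + (T * T / 70368744177664 * T / 70368744177664 *
      (T * T / 70368744177664) / 70368744177664) / 5)) : ℕ) : ℝ)
  obtain ⟨a1, a2⟩ := div_bd (T * T) 70368744177664 (by norm_num)
  set A := T * T / 70368744177664
  obtain ⟨b1, b2⟩ := div_bd (A * T) 70368744177664 (by norm_num)
  set B := A * T / 70368744177664
  obtain ⟨c1, c2⟩ := div_bd (B * A) 70368744177664 (by norm_num)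
  set Cc := B * A / 70368744177664
  obtain ⟨d1, d2⟩ := div_bd B 3 (by norm_num)
  obtain ⟨e1, e2⟩ := div_bd Cc 5 (by norm_num)
  set b3 := B / 3
  set c5 := Cc / 5
  push_cast at *
  have hT0 : (0 : ℝ) ≤ T := Nat.cast_nonneg T
  have hA0 : (0 : ℝ) ≤ A := Nat.cast_nonneg A
  have hB0 : (0 : ℝ) ≤ B := Nat.cast_nonneg B
  set t : ℝ := (T : ℝ) / 70368744177664 with ht
  have htT : (T : ℝ) = 70368744177664 * t := by rw [ht]; field_simp
  have ht0 : 0 ≤ t := by positivity
  have ht1 : t ≤ 1 / 17 := by rw [ht, div_le_div_iff₀ (by norm_num) (by norm_num)]; linarith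
  rw [htT] at a1 a2 b1 b2 ⊢
  have A1 : (A : ℝ) ≤ 70368744177664 * t ^ 2 := by
    calc (A : ℝ) ≤ _ := a1
      _ = _ := by ring
  have A2 : 70368744177664 * t ^ 2 - 1 ≤ (A : ℝ) := by
    calc _ = 70368744177664 * t * (70368744177664 * t) / 70368744177664 - 1 := by ring
      _ ≤ _ := a2
  have B1 : (B : ℝ) ≤ A * t := by
    calc (B : ℝ) ≤ _ := b1
      _ = _ := by ring
  have B2 : A * t - 1 ≤ (B : ℝ) := by
    calc _ = (A : ℝ) * (70368744177664 * t) / 70368744177664 - 1 := by ring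
      _ ≤ _ := b2
  have C1 : (Cc : ℝ) ≤ B * (A / 70368744177664) := by
    calc (Cc : ℝ) ≤ _ := c1
      _ = _ := by ring
  have C2 : B * (A / 70368744177664) - 1 ≤ (Cc : ℝ) := by
    calc _ = (B : ℝ) * A / 70368744177664 - 1 := by ring
      _ ≤ _ := c2
  have B3 : (B : ℝ) ≤ 70368744177664 * t ^ 3 := by nlinarith
  have B4 : 70368744177664 * t ^ 3 - 2 ≤ (B : ℝ) := by nlinarith
  have A3 : (A : ℝ) / 70368744177664 ≤ t ^ 2 := by
    rw [div_le_iff₀ (by norm_num)]; linarith
  have A4 : t ^ 2 - 1 / 70368744177664 ≤ (A : ℝ) / 70368744177664 := by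
    rw [le_div_iff₀ (by norm_num)]; linarith
  have A5 : 0 ≤ (A : ℝ) / 70368744177664 := by positivity
  have ht2 : t ^ 2 ≤ 1 := by nlinarith
  have C3 : (Cc : ℝ) ≤ 70368744177664 * t ^ 5 := by
    calc (Cc : ℝ) ≤ B * (A / 70368744177664) := C1
      _ ≤ (70368744177664 * t ^ 3) * t ^ 2 := mul_le_mul B3 A3 A5 (by positivity)
      _ = _ := by ring
  have C4 : 70368744177664 * t ^ 5 - 4 ≤ (Cc : ℝ) := by
    have k1 : (70368744177664 * t ^ 3 - 2) * (A / 70368744177664) ≤
      B * (A / 70368744177664) := mul_le_mul_of_nonneg_right B4 A5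
    have k2 : 70368744177664 * t ^ 3 * (t ^ 2 - 1 / 70368744177664) ≤
      70368744177664 * t ^ 3 * (A / 70368744177664) :=
      mul_le_mul_of_nonneg_left A4 (by positivity)
    have k3 : t ^ 3 ≤ 1 := by nlinarith [mul_nonneg ht0 ht0]
    nlinarith
  constructor <;> linarith

/-- the ratio series with a rounded argument -/
theorem ratio_bd {t τ : ℝ} (ht0 : 0 ≤ t) (ht1 : t ≤ 1 / 17) (hτ0 : 0 ≤ τ) (hτ1 : τ ≤ t)
    (hτ2 : t - 1 / 70368744177664 ≤ τ) :
    2 * (τ + τ ^ 3 / 3 + τ ^ 5 / 5) ≤ Real.log (1 + t) - Real.log (1 - t) ∧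
    70368744177664 * (Real.log (1 + t) - Real.log (1 - t)) ≤
      70368744177664 * (2 * (τ + τ ^ 3 / 3 + τ ^ 5 / 5)) + 49270 := by
  have m1 := artanh_sum_le ht0 (by linarith) 3
  have m2 := artanh_le_sum ht0 (by linarith) 3
  have msum : ∑ i ∈ range 3, (2 : ℝ) * (1 / (2 * i + 1)) * t ^ (2 * i + 1) =
      2 * (t + t ^ 3 / 3 + t ^ 5 / 5) := by
    simp only [Finset.sum_range_succ, Finset.sum_range_zero]
    push_cast
    ring
  rw [msum] at m1 m2
  have t3 : τ ^ 3 ≤ t ^ 3 := pow_le_pow_left₀ hτ0 hτ1 3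
  have t5 : τ ^ 5 ≤ t ^ 5 := pow_le_pow_left₀ hτ0 hτ1 5
  have tsm : t ^ 7 ≤ (1 / 17) ^ 7 := pow_le_pow_left₀ ht0 ht1 7
  have tsq : t ^ 2 ≤ (1 / 17) ^ 2 := pow_le_pow_left₀ ht0 ht1 2
  have m3 : 2 / (2 * ((3 : ℕ) : ℝ) + 1) * t ^ (2 * 3 + 1) / (1 - t ^ 2) ≤ 6999 / 10 ^ 13 := by
    rw [div_le_iff₀ (by nlinarith)]
    norm_num at tsm tsq ⊢
    nlinarith
  have u3 : t ^ 3 ≤ τ ^ 3 + 1 / 70368744177664 := by
    have e : t ^ 3 - τ ^ 3 = (t - τ) * (t ^ 2 + t * τ + τ ^ 2) := by ring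
    have e2 : t ^ 2 + t * τ + τ ^ 2 ≤ 1 := by nlinarith
    have e3 : (t - τ) * (t ^ 2 + t * τ + τ ^ 2) ≤ (t - τ) * 1 :=
      mul_le_mul_of_nonneg_left e2 (by linarith)
    linarith
  have u5 : t ^ 5 ≤ τ ^ 5 + 1 / 70368744177664 := by
    have e : t ^ 5 - τ ^ 5 = (t - τ) * (t ^ 4 + t ^ 3 * τ + t ^ 2 * τ ^ 2 + t * τ ^ 3 + τ ^ 4) := by
      ring
    have hτs : τ ≤ 1 / 17 := hτ1.trans ht1
    have e2 : t ^ 4 + t ^ 3 * τ + t ^ 2 * τ ^ 2 + t * τ ^ 3 + τ ^ 4 ≤ 1 := by
      have a4 : t ^ 4 ≤ (1 / 17) ^ 4 := pow_le_pow_left₀ ht0 ht1 4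
      have a3 : t ^ 3 * τ ≤ (1 / 17) ^ 3 * (1 / 17) :=
        mul_le_mul (pow_le_pow_left₀ ht0 ht1 3) hτs hτ0 (by norm_num)
      have a2 : t ^ 2 * τ ^ 2 ≤ (1 / 17) ^ 2 * (1 / 17) ^ 2 :=
        mul_le_mul (pow_le_pow_left₀ ht0 ht1 2) (pow_le_pow_left₀ hτ0 hτs 2)
          (by positivity) (by norm_num)
      have a1 : t * τ ^ 3 ≤ (1 / 17) * (1 / 17) ^ 3 :=
        mul_le_mul ht1 (pow_le_pow_left₀ hτ0 hτs 3) (by positivity) (by norm_num)
      have a0 : τ ^ 4 ≤ (1 / 17) ^ 4 := pow_le_pow_left₀ hτ0 hτs 4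
      norm_num at *
      linarith
    have e3 : (t - τ) * (t ^ 4 + t ^ 3 * τ + t ^ 2 * τ ^ 2 + t * τ ^ 3 + τ ^ 4) ≤
        (t - τ) * 1 := mul_le_mul_of_nonneg_left e2 (by linarith)
    linarith
  constructor
  · linarith
  · linarith

/-- everything in units of `2^{-46}`, with the offset `2^56` -/
def lgW (k c a b : ℕ) : ℕ :=
  Nat.add (Nat.add (Nat.mul k 48775896626292) (lTabAt (Nat.sub c 8)))
    (Nat.add (lgS (Nat.div (Nat.mul (Nat.sub a b) 70368744177664) (Nat.add a b)))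
      70594317139139176)

def lgR2 (k a P c : ℕ) : ℕ := lgW k c a (Nat.mul c P)

def lgR1 (k a P : ℕ) : ℕ := lgR2 k a P (Nat.div a P)

/-- `2^46 (log (X / 2^30)) + 2^56`, approximately -/
def lgRaw (X : ℕ) : ℕ := lgR1 (Nat.log2 X) (Nat.mul 8 X) (Nat.shiftLeft 1 (Nat.log2 X))

theorem lgRaw_bd (X : ℕ) (hX : 0 < X) (hX2 : X < 1099511627776) :
    (lgRaw X : ℝ) - 64 ≤ 70368744177664 * Real.log ((X : ℝ) / 1073741824) + 72057594037927936 ∧
    70368744177664 * Real.log ((X : ℝ) / 1073741824) + 72057594037927936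
      ≤ (lgRaw X : ℝ) + 49400 := by
  have h1 := Nat.log2_self_le (n := X) (by omega)
  have h2 := Nat.lt_log2_self (n := X)
  unfold lgRaw lgR1 lgR2 lgW
  set k := Nat.log2 X with hk
  have hk40 : k < 40 := by
    rw [hk, Nat.log2_lt (by omega)]
    exact hX2
  have hsh : Nat.shiftLeft 1 k = 2 ^ k := by
    change 1 <<< k = 2 ^ k
    rw [Nat.one_shiftLeft]
  rw [hsh]
  set P := 2 ^ k with hP
  have hP0 : 0 < P := by positivity
  have h3 : X < 2 * P := by rw [hP]; rw [pow_succ] at h2; omega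
  dsimp only [Nat.mul_eq, Nat.add_eq, Nat.sub_eq]
  change (((k * 48775896626292 + lTabAt (8 * X / P - 8)) + (lgS ((8 * X - 8 * X / P * P) *
    70368744177664 / (8 * X + 8 * X / P * P)) + 70594317139139176) : ℕ) : ℝ) - 64 ≤ _ ∧ _ ≤
    (((k * 48775896626292 + lTabAt (8 * X / P - 8)) + (lgS ((8 * X - 8 * X / P * P) *
    70368744177664 / (8 * X + 8 * X / P * P)) + 70594317139139176) : ℕ) : ℝ) + 49400
  have hc8 : 8 ≤ 8 * X / P := by
    rw [Nat.le_div_iff_mul_le hP0]; omega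
  have hc16 : 8 * X / P < 16 := by
    rw [Nat.div_lt_iff_lt_mul hP0]; omega
  have hb1 : 8 * X / P * P ≤ 8 * X := Nat.div_mul_le_self _ _
  have hb2 : 8 * X < 8 * X / P * P + P := Nat.lt_div_mul_add hP0
  obtain ⟨j, hj⟩ := Nat.exists_eq_add_of_le hc8
  rw [hj] at hb1 hb2 hc16 ⊢
  have hj8 : j < 8 := by omega
  have hjj : 8 + j - 8 = j := by omega
  rw [hjj]
  obtain ⟨t1, t2⟩ := tab_bd j hj8
  obtain ⟨l1, l2⟩ := log_two_bd
  set b := (8 + j) * P with hb
  have hb0 : 8 * P ≤ b := by rw [hb]; exact Nat.mul_le_mul_right _ (by omega)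
  -- the real quantities
  have rP : (0 : ℝ) < P := by exact_mod_cast hP0
  have rb0 : (8 : ℝ) * P ≤ b := by exact_mod_cast hb0
  have rb1 : (b : ℝ) ≤ 8 * X := by exact_mod_cast hb1
  have rb2 : (8 : ℝ) * X < b + P := by exact_mod_cast hb2
  have rbp : (0 : ℝ) < b := by linarith
  have rbe : (b : ℝ) = (8 + j) * P := by rw [hb]; push_cast; ring
  have rPk : (P : ℝ) = 2 ^ k := by rw [hP]; push_cast; ring
  set t : ℝ := (8 * X - b) / (8 * X + b) with ht
  have hden : (0 : ℝ) < 8 * X + b := by linarith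
  have ht0 : 0 ≤ t := div_nonneg (by linarith) hden.le
  have ht1 : t ≤ 1 / 17 := by
    rw [ht, div_le_div_iff₀ hden (by norm_num)]; linarith
  -- T
  obtain ⟨T1, T2⟩ := div_bd ((8 * X - b) * 70368744177664) (8 * X + b) (by omega)
  set T := (8 * X - b) * 70368744177664 / (8 * X + b)
  have cs : ((8 * X - b : ℕ) : ℝ) = 8 * X - b := by
    rw [Nat.cast_sub hb1]; push_cast; ring
  have ce : (((8 * X - b) * 70368744177664 : ℕ) : ℝ) / ((8 * X + b : ℕ) : ℝ) =
      70368744177664 * t := by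
    rw [ht, Nat.cast_mul, cs]
    push_cast
    ring
  rw [ce] at T1 T2
  have hTle : (T : ℝ) ≤ 70368744177664 / 17 := by nlinarith
  obtain ⟨s1, s2⟩ := lgS_bd T hTle
  set τ : ℝ := (T : ℝ) / 70368744177664 with hτ
  have hτ0 : 0 ≤ τ := by positivity
  have hτ1 : τ ≤ t := by rw [hτ, div_le_iff₀ (by norm_num)]; linarith
  have hτ2 : t - 1 / 70368744177664 ≤ τ := by
    rw [hτ, le_div_iff₀ (by norm_num)]; linarith
  obtain ⟨q1, q2⟩ := ratio_bd ht0 ht1 hτ0 hτ1 hτ2
  rw [ht, log_ratio rbp rb1] at q1 q2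
  -- assemble
  have hX0 : (0 : ℝ) < X := by exact_mod_cast hX
  have eX : (X : ℝ) / 1073741824 = (2 ^ k * ((8 + j) / 8) * (8 * X / b)) / 2 ^ 30 := by
    rw [rbe, rPk]
    have : (8 + (j : ℝ)) ≠ 0 := by positivity
    field_simp
    norm_num
  have hlog : Real.log ((X : ℝ) / 1073741824) = k * Real.log 2 + Real.log ((8 + j) / 8)
      + Real.log (8 * X / b) - 30 * Real.log 2 := by
    rw [eX, Real.log_div (by positivity) (by positivity), Real.log_mul (by positivity)
      (by positivity), Real.log_mul (by positivity) (by positivity), Real.log_pow, Real.log_pow]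
    push_cast
    ring
  rw [hlog]
  have hk0 : (0 : ℝ) ≤ k := Nat.cast_nonneg k
  have hk40' : (k : ℝ) ≤ 39 := by
    have : k ≤ 39 := by omega
    exact_mod_cast this
  have kl1 : (k : ℝ) * (48775896626292 - 1) ≤ k * (70368744177664 * Real.log 2) :=
    mul_le_mul_of_nonneg_left l1 hk0
  have kl2 : (k : ℝ) * (70368744177664 * Real.log 2) ≤ k * (48775896626292 + 1) :=
    mul_le_mul_of_nonneg_left l2 hk0
  push_cast
  constructor
  · nlinarith
  · nlinarith

/-- lower bound for `log` of the offset natural `n` -/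
def logLo (n : ℕ) : ℕ := Nat.div (Nat.sub (lgRaw (Nat.sub n 1099511627776)) 64) 65536

/-- upper bound for `log` of the offset natural `n` -/
def logHi (n : ℕ) : ℕ :=
  Nat.succ (Nat.div (Nat.add (lgRaw (Nat.sub n 1099511627776)) 49400) 65536)

theorem vl_sub (n : ℕ) (h : 1099511627776 < n) :
    vl n = ((n - 1099511627776 : ℕ) : ℝ) / 1073741824 := by
  unfold vl
  rw [Nat.cast_sub h.le]
  norm_num

theorem logLo_le (n : ℕ) (h : 1099511627776 < n) (h2 : n < 2199023255552) :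
    vl (logLo n) ≤ Real.log (vl n) := by
  rw [vl_sub n h]
  obtain ⟨a1, a2⟩ := lgRaw_bd (n - 1099511627776) (by omega) (by omega)
  unfold logLo
  change vl ((lgRaw (n - 1099511627776) - 64) / 65536) ≤ _
  set X := n - 1099511627776
  have b0 : (70594317139139176 : ℕ) ≤ lgRaw X := by
    unfold lgRaw lgR1 lgR2 lgW
    dsimp only [Nat.add_eq]
    omega
  obtain ⟨b1, _⟩ := div_bd (lgRaw X - 64) 65536 (by norm_num)
  have b2 : ((lgRaw X - 64 : ℕ) : ℝ) = lgRaw X - 64 := by
    rw [Nat.cast_sub (by omega)]; norm_num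
  rw [b2] at b1
  unfold vl
  rw [div_le_iff₀ (by norm_num)]
  push_cast at b1
  linarith

theorem le_logHi (n : ℕ) (h : 1099511627776 < n) (h2 : n < 2199023255552) :
    Real.log (vl n) ≤ vl (logHi n) := by
  rw [vl_sub n h]
  obtain ⟨a1, a2⟩ := lgRaw_bd (n - 1099511627776) (by omega) (by omega)
  unfold logHi
  change _ ≤ vl ((lgRaw (n - 1099511627776) + 49400) / 65536 + 1)
  set X := n - 1099511627776
  obtain ⟨_, b1⟩ := div_bd (lgRaw X + 49400) 65536 (by norm_num)
  unfold vl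
  rw [le_div_iff₀ (by norm_num)]
  push_cast at b1 ⊢
  linarith

/-- logarithm of an interval -/
def Iv.log (x : Iv) : Iv :=
  match x with
  | ⟨a, b⟩ => ⟨logLo a, logHi b⟩

/-- the interval consists of positive numbers smaller than `1024` -/
def Iv.lok (x : Iv) : Bool :=
  match x with
  | ⟨a, b⟩ => bif Nat.blt 1099511627776 a then Nat.blt b 2199023255552 else false

theorem vl_pos {a : ℕ} (h : 1099511627776 < a) : 0 < vl a := by
  unfold vl
  have : (1099511627776 : ℝ) < a := by exact_mod_cast h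
  apply div_pos <;> linarith

theorem Iv.log_mem {x : Iv} {u : ℝ} (hx : x.Mem u) (ok : x.lok = true) :
    (x.log).Mem (Real.log u) := by
  obtain ⟨a, b⟩ := x
  have hab := Iv.le_of_mem hx
  unfold Iv.lok at ok
  dsimp only at ok hab
  rcases ha : Nat.blt 1099511627776 a with _ | _
  · rw [ha] at ok; simp at ok
  · rw [ha] at ok
    simp only [cond_true] at ok
    have h1 : 1099511627776 < a := by
      rwa [Nat.blt_eq] at ha
    have h2 : b < 2199023255552 := by
      rwa [Nat.blt_eq] at ok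
    have p0 : 0 < vl a := vl_pos h1
    unfold Iv.Mem at *
    dsimp only [Iv.log] at *
    constructor
    · exact (logLo_le a h1 (by omega)).trans (Real.log_le_log p0 hx.1)
    · exact (Real.log_le_log (p0.trans_le hx.1) hx.2).trans (le_logHi b (by omega) h2)

end Vale.Agent.IAD
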